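import Mathlib

namespace Vale.Agent.Lib.P355

/-- Two orthonormal bases `B`, `C` of `ℂ^6` are mutually unbiased when
`|⟨b, c⟩|^2 = 1/6` for every `b` in `B` and every `c` in `C`. -/
def MutuallyUnbiased (B C : OrthonormalBasis (Fin 6) ℂ (EuclideanSpace ℂ (Fin 6))) : Prop :=
  ∀ i j, ‖inner ℂ (B i) (C j)‖ ^ 2 = 1 / 6

end Vale.Agent.Lib.P355
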