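import Mathlib

namespace Vale.Agent.Lib.P355

/-- The Gaussian rationals `ℚ(i)`, as a set of complex numbers. -/
def gaussianRationals : Set ℂ := {z | ∃ x y : ℚ, z = x + y * Complex.I}

/-- The Eisenstein rationals `ℚ(ω)` with `ω = (-1 + √3 i)/2` a primitive cube root of unity,
as a set of complex numbers. -/
def eisensteinRationals : Set ℂ :=
  {z | ∃ x y : ℚ, z = x + y * ((-1 + (Real.sqrt 3 : ℂ) * Complex.I) / 2)}

end Vale.Agent.Lib.P355
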