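import Mathlib

namespace Vale.Agent.Lib.P355

/-- An orthonormal basis of `ℂ^6` is projectively defined over the subring `K` of `ℂ` when,
for each of its vectors, every ratio of two coordinates lies in `K`. -/
def RatiosIn (K : Subring ℂ) (B : OrthonormalBasis (Fin 6) ℂ (EuclideanSpace ℂ (Fin 6))) : Prop :=
  ∀ i a b, (B i).ofLp a / (B i).ofLp b ∈ K

end Vale.Agent.Lib.P355
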