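import Mathlib
import Vale.Agent.Lib.P355.Defs
import Vale.Agent.Lib.P355.DefsRatios

namespace Vale.Agent.Lib.P355

open Complex

/-- A vector of a basis unbiased to the standard basis has all coordinates of squared modulus 1/6. -/
theorem coord_normSq_of_unbiased_std
    (B : OrthonormalBasis (Fin 6) ℂ (EuclideanSpace ℂ (Fin 6)))
    (h : MutuallyUnbiased (EuclideanSpace.basisFun (Fin 6) ℂ) B) (i a : Fin 6) :
    ‖(B i).ofLp a‖ ^ 2 = 1 / 6 := by
  have := h a i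
  rw [EuclideanSpace.basisFun_apply, EuclideanSpace.inner_single_left] at this
  simpa using this

theorem inner_factor (v w : EuclideanSpace ℂ (Fin 6)) (hv : v.ofLp 0 ≠ 0) (hw : w.ofLp 0 ≠ 0) :
    inner ℂ v w = (starRingEnd ℂ) (v.ofLp 0) * w.ofLp 0 *
      ∑ a, (starRingEnd ℂ) (v.ofLp a / v.ofLp 0) * (w.ofLp a / w.ofLp 0) := by
  rw [PiLp.inner_apply, Finset.mul_sum]
  refine Finset.sum_congr rfl fun a _ => ?_
  rw [RCLike.inner_apply, map_div₀]
  have hv' : (starRingEnd ℂ) (v.ofLp 0) ≠ 0 := by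
    simpa using hv
  field_simp

theorem not_unbiased_of_ratiosIn (K : Subring ℂ)
    (hconj : ∀ z ∈ K, (starRingEnd ℂ) z ∈ K)
    (hnorm : ∀ z ∈ K, z * (starRingEnd ℂ) z ≠ 6)
    (B C : OrthonormalBasis (Fin 6) ℂ (EuclideanSpace ℂ (Fin 6)))
    (hB : MutuallyUnbiased (EuclideanSpace.basisFun (Fin 6) ℂ) B)
    (hC : MutuallyUnbiased (EuclideanSpace.basisFun (Fin 6) ℂ) C)
    (hBK : RatiosIn K B) (hCK : RatiosIn K C) :
    ¬ MutuallyUnbiased B C := by
  intro hBC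
  have hv := coord_normSq_of_unbiased_std B hB 0 0
  have hw := coord_normSq_of_unbiased_std C hC 0 0
  have hv0 : (B 0).ofLp 0 ≠ 0 := by
    intro h0
    rw [h0] at hv
    norm_num at hv
  have hw0 : (C 0).ofLp 0 ≠ 0 := by
    intro h0
    rw [h0] at hw
    norm_num at hw
  set z : ℂ := ∑ a, (starRingEnd ℂ) ((B 0).ofLp a / (B 0).ofLp 0) * ((C 0).ofLp a / (C 0).ofLp 0)
    with hz
  have hzK : z ∈ K := by
    rw [hz]
    refine Subring.sum_mem K fun a _ => ?_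
    exact Subring.mul_mem K (hconj _ (hBK 0 a 0)) (hCK 0 a 0)
  have h1 := hBC 0 0
  rw [inner_factor _ _ hv0 hw0, ← hz, norm_mul, norm_mul, mul_pow, mul_pow, RCLike.norm_conj,
    hv, hw] at h1
  have h2 : ‖z‖ ^ 2 = 6 := by linarith
  apply hnorm z hzK
  rw [Complex.mul_conj, Complex.normSq_eq_norm_sq, h2]
  norm_num

theorem fieldObstruction (K : Subring ℂ)
    (hconj : ∀ z ∈ K, (starRingEnd ℂ) z ∈ K)
    (hnorm : ∀ z ∈ K, z * (starRingEnd ℂ) z ≠ 6)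
    {ι : Type*} (B : ι → OrthonormalBasis (Fin 6) ℂ (EuclideanSpace ℂ (Fin 6)))
    (hMU : ∀ i j, i ≠ j → MutuallyUnbiased (B i) (B j))
    (i₀ : ι) (hstd : B i₀ = EuclideanSpace.basisFun (Fin 6) ℂ)
    (hK : ∀ i, i ≠ i₀ → RatiosIn K (B i)) :
    ∀ i j, i ≠ i₀ → j ≠ i₀ → i = j := by
  intro i j hi hj
  by_contra hij
  have h1 := hMU i₀ i (Ne.symm hi)
  have h2 := hMU i₀ j (Ne.symm hj)
  rw [hstd] at h1 h2
  exact not_unbiased_of_ratiosIn K hconj hnorm (B i) (B j) h1 h2 (hK i hi) (hK j hj) (hMU i j hij)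

end Vale.Agent.Lib.P355
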