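import Mathlib

namespace Vale.Agent.Lib.P355

/-- Descent: `a^2 + b^2 = 6 c^2` over the integers forces `c = 0`. -/
theorem int_sq_add_sq_ne_six_aux : ∀ n : ℕ, ∀ a b c : ℤ, c.natAbs ≤ n →
    a ^ 2 + b ^ 2 = 6 * c ^ 2 → c = 0 := by
  intro n
  induction n with
  | zero =>
    intro a b c hc _
    have : c.natAbs = 0 := Nat.le_zero.mp hc
    exact Int.natAbs_eq_zero.mp this
  | succ n ih =>
    intro a b c hc h
    by_contra hc0
    have ha : (3 : ℤ) ∣ a := by
      have h3 : (a ^ 2 + b ^ 2) % 3 = 0 := by rw [h]; omega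
      have h1 : a % 3 = 0 ∨ a % 3 = 1 ∨ a % 3 = 2 := by omega
      have h2 : b % 3 = 0 ∨ b % 3 = 1 ∨ b % 3 = 2 := by omega
      apply Int.dvd_of_emod_eq_zero
      rcases h1 with h1 | h1 | h1 <;> rcases h2 with h2 | h2 | h2 <;>
        simp [pow_two, Int.add_emod, Int.mul_emod, h1, h2] at h3 ⊢
    have hb : (3 : ℤ) ∣ b := by
      have h3 : (a ^ 2 + b ^ 2) % 3 = 0 := by rw [h]; omega
      have h1 : a % 3 = 0 ∨ a % 3 = 1 ∨ a % 3 = 2 := by omega
      have h2 : b % 3 = 0 ∨ b % 3 = 1 ∨ b % 3 = 2 := by omega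
      apply Int.dvd_of_emod_eq_zero
      rcases h1 with h1 | h1 | h1 <;> rcases h2 with h2 | h2 | h2 <;>
        simp [pow_two, Int.add_emod, Int.mul_emod, h1, h2] at h3 ⊢
    obtain ⟨a', rfl⟩ := ha
    obtain ⟨b', rfl⟩ := hb
    have h' : 3 * (a' ^ 2 + b' ^ 2) = 2 * c ^ 2 := by nlinarith
    have hc3 : (3 : ℤ) ∣ c := by
      have h3 : (2 * c ^ 2) % 3 = 0 := by rw [← h']; omega
      have h1 : c % 3 = 0 ∨ c % 3 = 1 ∨ c % 3 = 2 := by omega
      apply Int.dvd_of_emod_eq_zero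
      rcases h1 with h1 | h1 | h1 <;>
        simp [pow_two, Int.mul_emod, h1] at h3 ⊢
    obtain ⟨c', rfl⟩ := hc3
    have h'' : a' ^ 2 + b' ^ 2 = 6 * c' ^ 2 := by nlinarith
    have hc' : c'.natAbs ≤ n := by
      rw [Int.natAbs_mul] at hc
      have : (3 : ℤ).natAbs = 3 := rfl
      rw [this] at hc
      have hpos : 0 < c'.natAbs := by
        rw [Int.natAbs_pos]
        intro h0
        apply hc0
        rw [h0]; ring
      omega
    have := ih a' b' c' hc' h''
    apply hc0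
    rw [this]; ring

/-- Descent: `a^2 - a b + b^2 = 6 c^2` over the integers forces `c = 0`. -/
theorem int_eisenstein_ne_six_aux : ∀ n : ℕ, ∀ a b c : ℤ, c.natAbs ≤ n →
    a ^ 2 - a * b + b ^ 2 = 6 * c ^ 2 → c = 0 := by
  intro n
  induction n with
  | zero =>
    intro a b c hc _
    have : c.natAbs = 0 := Nat.le_zero.mp hc
    exact Int.natAbs_eq_zero.mp this
  | succ n ih =>
    intro a b c hc h
    by_contra hc0
    have h2 : (a ^ 2 - a * b + b ^ 2) % 2 = 0 := by rw [h]; omega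
    have ha : (2 : ℤ) ∣ a := by
      have h1 : a % 2 = 0 ∨ a % 2 = 1 := by omega
      have h3 : b % 2 = 0 ∨ b % 2 = 1 := by omega
      apply Int.dvd_of_emod_eq_zero
      rcases h1 with h1 | h1 <;> rcases h3 with h3 | h3 <;>
        simp [pow_two, Int.add_emod, Int.sub_emod, Int.mul_emod, h1, h3] at h2 ⊢
    have hb : (2 : ℤ) ∣ b := by
      have h1 : a % 2 = 0 ∨ a % 2 = 1 := by omega
      have h3 : b % 2 = 0 ∨ b % 2 = 1 := by omega
      apply Int.dvd_of_emod_eq_zero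
      rcases h1 with h1 | h1 <;> rcases h3 with h3 | h3 <;>
        simp [pow_two, Int.add_emod, Int.sub_emod, Int.mul_emod, h1, h3] at h2 ⊢
    obtain ⟨a', rfl⟩ := ha
    obtain ⟨b', rfl⟩ := hb
    have h' : 2 * (a' ^ 2 - a' * b' + b' ^ 2) = 3 * c ^ 2 := by nlinarith
    have hc2 : (2 : ℤ) ∣ c := by
      have h3 : (3 * c ^ 2) % 2 = 0 := by rw [← h']; omega
      have h1 : c % 2 = 0 ∨ c % 2 = 1 := by omega
      apply Int.dvd_of_emod_eq_zero
      rcases h1 with h1 | h1 <;>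
        simp [pow_two, Int.mul_emod, h1] at h3 ⊢
    obtain ⟨c', rfl⟩ := hc2
    have h'' : a' ^ 2 - a' * b' + b' ^ 2 = 6 * c' ^ 2 := by nlinarith
    have hc' : c'.natAbs ≤ n := by
      rw [Int.natAbs_mul] at hc
      have : (2 : ℤ).natAbs = 2 := rfl
      rw [this] at hc
      have hpos : 0 < c'.natAbs := by
        rw [Int.natAbs_pos]
        intro h0
        apply hc0
        rw [h0]; ring
      omega
    have := ih a' b' c' hc' h''
    apply hc0
    rw [this]; ring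

/-- `6` is not a sum of two rational squares. -/
theorem rat_sq_add_sq_ne_six (x y : ℚ) : x ^ 2 + y ^ 2 ≠ 6 := by
  intro h
  have hx : (x.den : ℚ) ≠ 0 := by exact_mod_cast x.den_nz
  have hy : (y.den : ℚ) ≠ 0 := by exact_mod_cast y.den_nz
  have key : ((x.num * y.den : ℤ) : ℚ) ^ 2 + ((y.num * x.den : ℤ) : ℚ) ^ 2
      = 6 * ((x.den * y.den : ℤ) : ℚ) ^ 2 := by
    have hx' : x = x.num / x.den := (Rat.num_div_den x).symm
    have hy' : y = y.num / y.den := (Rat.num_div_den y).symm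
    rw [hx', hy'] at h
    push_cast
    field_simp at h
    linarith
  have key' : (x.num * y.den : ℤ) ^ 2 + (y.num * x.den : ℤ) ^ 2 = 6 * (x.den * y.den : ℤ) ^ 2 := by
    exact_mod_cast key
  have := int_sq_add_sq_ne_six_aux _ _ _ _ le_rfl key'
  have hx0 : (x.den : ℤ) ≠ 0 := by exact_mod_cast x.den_nz
  have hy0 : (y.den : ℤ) ≠ 0 := by exact_mod_cast y.den_nz
  exact mul_ne_zero hx0 hy0 this

/-- `6` is not a value of the Eisenstein norm form on rational arguments. -/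
theorem rat_eisenstein_ne_six (x y : ℚ) : x ^ 2 - x * y + y ^ 2 ≠ 6 := by
  intro h
  have hx : (x.den : ℚ) ≠ 0 := by exact_mod_cast x.den_nz
  have hy : (y.den : ℚ) ≠ 0 := by exact_mod_cast y.den_nz
  have key : ((x.num * y.den : ℤ) : ℚ) ^ 2 - ((x.num * y.den : ℤ) : ℚ) * ((y.num * x.den : ℤ) : ℚ)
      + ((y.num * x.den : ℤ) : ℚ) ^ 2 = 6 * ((x.den * y.den : ℤ) : ℚ) ^ 2 := by
    have hx' : x = x.num / x.den := (Rat.num_div_den x).symm
    have hy' : y = y.num / y.den := (Rat.num_div_den y).symm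
    rw [hx', hy'] at h
    push_cast
    field_simp at h
    linarith
  have key' : (x.num * y.den : ℤ) ^ 2 - (x.num * y.den : ℤ) * (y.num * x.den : ℤ)
      + (y.num * x.den : ℤ) ^ 2 = 6 * (x.den * y.den : ℤ) ^ 2 := by
    exact_mod_cast key
  have := int_eisenstein_ne_six_aux _ _ _ _ le_rfl key'
  have hx0 : (x.den : ℤ) ≠ 0 := by exact_mod_cast x.den_nz
  have hy0 : (y.den : ℤ) ≠ 0 := by exact_mod_cast y.den_nz
  exact mul_ne_zero hx0 hy0 this

end Vale.Agent.Lib.P355
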