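import Mathlib
import Vale.Agent.Lib.P355.Defs
import Vale.Agent.Lib.P355.DefsFields
import Vale.Agent.Lib.P355.NormSix
import Vale.Agent.Lib.P355.FieldObstructionProof

namespace Vale.Agent.Lib.P355

open Complex

/-- The primitive cube root of unity `(-1 + √3 i)/2`. -/
noncomputable def omegaC : ℂ := (-1 + (Real.sqrt 3 : ℂ) * Complex.I) / 2

theorem sqrt3_sq : ((Real.sqrt 3 : ℝ) : ℂ) ^ 2 = 3 := by
  have : (Real.sqrt 3 : ℝ) ^ 2 = 3 := Real.sq_sqrt (by norm_num)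
  exact_mod_cast this

theorem omegaC_sq : omegaC ^ 2 = -1 - omegaC := by
  unfold omegaC
  have h := sqrt3_sq
  have hI : Complex.I ^ 2 = -1 := Complex.I_sq
  ring_nf
  rw [hI, h]
  ring

theorem conj_omegaC : (starRingEnd ℂ) omegaC = -1 - omegaC := by
  unfold omegaC
  simp only [map_div₀, map_add, map_neg, map_one, map_mul, Complex.conj_ofReal, Complex.conj_I]
  have : (starRingEnd ℂ) (2 : ℂ) = 2 := by
    rw [show (2 : ℂ) = ((2 : ℝ) : ℂ) by norm_num, Complex.conj_ofReal]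
  rw [this]
  ring

/-- The Gaussian rationals as a subring of `ℂ`. -/
def gaussSubring : Subring ℂ where
  carrier := gaussianRationals
  mul_mem' := by
    rintro _ _ ⟨x, y, rfl⟩ ⟨x', y', rfl⟩
    refine ⟨x * x' - y * y', x * y' + y * x', ?_⟩
    have hI : Complex.I ^ 2 = -1 := Complex.I_sq
    push_cast
    linear_combination ((y : ℂ) * y') * hI
  one_mem' := ⟨1, 0, by simp⟩
  add_mem' := by
    rintro _ _ ⟨x, y, rfl⟩ ⟨x', y', rfl⟩
    exact ⟨x + x', y + y', by push_cast; ring⟩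
  zero_mem' := ⟨0, 0, by simp⟩
  neg_mem' := by
    rintro _ ⟨x, y, rfl⟩
    exact ⟨-x, -y, by push_cast; ring⟩

/-- The Eisenstein rationals as a subring of `ℂ`. -/
def eisSubring : Subring ℂ where
  carrier := eisensteinRationals
  mul_mem' := by
    rintro _ _ ⟨x, y, rfl⟩ ⟨x', y', rfl⟩
    refine ⟨x * x' - y * y', x * y' + y * x' - y * y', ?_⟩
    have hw := omegaC_sq
    unfold omegaC at hw
    push_cast
    linear_combination ((y : ℂ) * y') * hw
  one_mem' := ⟨1, 0, by simp⟩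
  add_mem' := by
    rintro _ _ ⟨x, y, rfl⟩ ⟨x', y', rfl⟩
    exact ⟨x + x', y + y', by push_cast; ring⟩
  zero_mem' := ⟨0, 0, by simp⟩
  neg_mem' := by
    rintro _ ⟨x, y, rfl⟩
    exact ⟨-x, -y, by push_cast; ring⟩

theorem gauss_conj : ∀ z ∈ gaussSubring, (starRingEnd ℂ) z ∈ gaussSubring := by
  rintro _ ⟨x, y, rfl⟩
  refine ⟨x, -y, ?_⟩
  simp only [map_add, map_mul, Complex.conj_I]
  have hx : (starRingEnd ℂ) (x : ℂ) = x := by
    rw [show (x : ℂ) = ((x : ℝ) : ℂ) by norm_cast, Complex.conj_ofReal]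
  have hy : (starRingEnd ℂ) (y : ℂ) = y := by
    rw [show (y : ℂ) = ((y : ℝ) : ℂ) by norm_cast, Complex.conj_ofReal]
  rw [hx, hy]
  push_cast
  ring

theorem gauss_norm : ∀ z ∈ gaussSubring, z * (starRingEnd ℂ) z ≠ 6 := by
  rintro _ ⟨x, y, rfl⟩ h
  simp only [map_add, map_mul, Complex.conj_I] at h
  have hx : (starRingEnd ℂ) (x : ℂ) = x := by
    rw [show (x : ℂ) = ((x : ℝ) : ℂ) by norm_cast, Complex.conj_ofReal]
  have hy : (starRingEnd ℂ) (y : ℂ) = y := by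
    rw [show (y : ℂ) = ((y : ℝ) : ℂ) by norm_cast, Complex.conj_ofReal]
  rw [hx, hy] at h
  have hI : Complex.I ^ 2 = -1 := Complex.I_sq
  have h2 : ((x ^ 2 + y ^ 2 : ℚ) : ℂ) = ((6 : ℚ) : ℂ) := by
    push_cast
    linear_combination h + (y : ℂ) ^ 2 * hI
  have h3 : x ^ 2 + y ^ 2 = (6 : ℚ) := by exact_mod_cast h2
  exact rat_sq_add_sq_ne_six x y h3

theorem eis_conj : ∀ z ∈ eisSubring, (starRingEnd ℂ) z ∈ eisSubring := by
  rintro _ ⟨x, y, rfl⟩
  refine ⟨x - y, -y, ?_⟩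
  have hw := conj_omegaC
  unfold omegaC at hw
  simp only [map_add, map_mul]
  have hx : (starRingEnd ℂ) (x : ℂ) = x := by
    rw [show (x : ℂ) = ((x : ℝ) : ℂ) by norm_cast, Complex.conj_ofReal]
  have hy : (starRingEnd ℂ) (y : ℂ) = y := by
    rw [show (y : ℂ) = ((y : ℝ) : ℂ) by norm_cast, Complex.conj_ofReal]
  rw [hx, hy, hw]
  push_cast
  ring

theorem eis_norm : ∀ z ∈ eisSubring, z * (starRingEnd ℂ) z ≠ 6 := by
  rintro _ ⟨x, y, rfl⟩ h
  have hw := conj_omegaC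
  have hw2 := omegaC_sq
  unfold omegaC at hw hw2
  simp only [map_add, map_mul] at h
  have hx : (starRingEnd ℂ) (x : ℂ) = x := by
    rw [show (x : ℂ) = ((x : ℝ) : ℂ) by norm_cast, Complex.conj_ofReal]
  have hy : (starRingEnd ℂ) (y : ℂ) = y := by
    rw [show (y : ℂ) = ((y : ℝ) : ℂ) by norm_cast, Complex.conj_ofReal]
  rw [hx, hy, hw] at h
  have h2 : ((x ^ 2 - x * y + y ^ 2 : ℚ) : ℂ) = ((6 : ℚ) : ℂ) := by
    push_cast
    linear_combination h + (y : ℂ) ^ 2 * hw2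
  have h3 : x ^ 2 - x * y + y ^ 2 = (6 : ℚ) := by exact_mod_cast h2
  exact rat_eisenstein_ne_six x y h3

theorem gaussEisenstein
    {ι : Type*} (B : ι → OrthonormalBasis (Fin 6) ℂ (EuclideanSpace ℂ (Fin 6)))
    (hMU : ∀ i j, i ≠ j → MutuallyUnbiased (B i) (B j))
    (i₀ : ι) (hstd : B i₀ = EuclideanSpace.basisFun (Fin 6) ℂ)
    (S : Set ℂ) (hS : S = gaussianRationals ∨ S = eisensteinRationals)
    (hK : ∀ i, i ≠ i₀ → ∀ k a b, (B i k).ofLp a / (B i k).ofLp b ∈ S) :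
    ∀ i j, i ≠ i₀ → j ≠ i₀ → i = j := by
  rcases hS with rfl | rfl
  · exact fieldObstruction gaussSubring gauss_conj gauss_norm B hMU i₀ hstd
      (fun i hi k a b => hK i hi k a b)
  · exact fieldObstruction eisSubring eis_conj eis_norm B hMU i₀ hstd
      (fun i hi k a b => hK i hi k a b)

end Vale.Agent.Lib.P355
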