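import Mathlib

namespace Vale.Agent.Lib.P355

open Polynomial

/-- Over `ZMod p`, the `p^t`-th power of a polynomial is its expansion by `p^t`. -/
theorem zmod_pow_eq_expand (p : ℕ) [Fact p.Prime] (t : ℕ) (f : (ZMod p)[X]) :
    f ^ (p ^ t) = expand (ZMod p) (p ^ t) f := by
  induction t with
  | zero => simp
  | succ t ih =>
    rw [pow_succ, pow_mul, ih, mul_comm, expand_mul, ZMod.expand_card]

/-- Frobenius for integer polynomials: `f^(p^t) = f(X^(p^t)) + p * g`. -/
theorem int_pow_eq_expand_add (p : ℕ) [Fact p.Prime] (t : ℕ) (f : ℤ[X]) :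
    ∃ g : ℤ[X], f ^ (p ^ t) = expand ℤ (p ^ t) f + C (p : ℤ) * g := by
  have hdvd : C (p : ℤ) ∣ f ^ (p ^ t) - expand ℤ (p ^ t) f := by
    rw [C_dvd_iff_dvd_coeff]
    intro i
    rw [← ZMod.intCast_zmod_eq_zero_iff_dvd]
    have h1 : ((f ^ (p ^ t) - expand ℤ (p ^ t) f).map (Int.castRingHom (ZMod p))) = 0 := by
      rw [Polynomial.map_sub, Polynomial.map_pow, map_expand, zmod_pow_eq_expand, sub_self]
    have h2 := congrArg (fun q => q.coeff i) h1
    simp only [coeff_map, coeff_zero] at h2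
    exact h2
  obtain ⟨g, hg⟩ := hdvd
  exact ⟨g, by rw [← hg]; ring⟩

end Vale.Agent.Lib.P355
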