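import Mathlib
import Vale.Agent.Lib.P355.Frobenius

namespace Vale.Agent.Lib.P355

open Polynomial

theorem aeval_conj_int (f : ℤ[X]) (z : ℂ) :
    aeval ((starRingEnd ℂ) z) f = (starRingEnd ℂ) (aeval z f) :=
  aeval_algHom_apply ((starRingEnd ℂ).toIntAlgHom) z f

theorem conj_eq_pow_of_dvd (ζ : ℂ) (m : ℕ) (hζ : ζ ^ m = 1) (N : ℕ) (hm : m ∣ N + 1) :
    (starRingEnd ℂ) ζ = ζ ^ N := by
  have hm0 : m ≠ 0 := by
    rintro rfl
    simp at hm
  have hnorm : ‖ζ‖ = 1 := Complex.norm_eq_one_of_pow_eq_one hζ hm0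
  have h1 : ζ * (starRingEnd ℂ) ζ = 1 := by
    rw [Complex.mul_conj, Complex.normSq_eq_norm_sq, hnorm]
    simp
  have h2 : ζ ^ (N + 1) = 1 := by
    obtain ⟨k, hk⟩ := hm
    rw [hk, pow_mul, hζ, one_pow]
  calc (starRingEnd ℂ) ζ = (starRingEnd ℂ) ζ * ζ ^ (N + 1) := by rw [h2, mul_one]
    _ = (ζ * (starRingEnd ℂ) ζ) * ζ ^ N := by ring
    _ = ζ ^ N := by rw [h1, one_mul]

theorem isIntegral_of_pow_eq_one (ζ : ℂ) (m : ℕ) (hm : 0 < m) (hζ : ζ ^ m = 1) :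
    IsIntegral ℤ ζ := by
  apply IsIntegral.of_pow hm
  rw [hζ]
  exact isIntegral_one

theorem isIntegral_aeval (ζ : ℂ) (hζ : IsIntegral ℤ ζ) (f : ℤ[X]) : IsIntegral ℤ (aeval ζ f) := by
  have h1 : aeval ζ f ∈ Algebra.adjoin ℤ {ζ} := aeval_mem_adjoin_singleton ℤ ζ
  have h2 : Algebra.adjoin ℤ {ζ} ≤ integralClosure ℤ ℂ := by
    apply Algebra.adjoin_le
    intro x hx
    rw [Set.mem_singleton_iff] at hx
    rw [hx]
    exact hζ
  exact h2 h1

theorem int_dvd_of_isIntegral_div (N : ℤ) (p : ℕ) (hp : p ≠ 0) (x : ℂ) (hx : IsIntegral ℤ x)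
    (h : (p : ℂ) * x = N) : (p : ℤ) ∣ N := by
  have hp' : (p : ℂ) ≠ 0 := by exact_mod_cast hp
  have hxr : x = algebraMap ℚ ℂ ((N : ℚ) / p) := by
    rw [map_div₀]
    simp only [eq_ratCast, Rat.cast_intCast, Rat.cast_natCast]
    field_simp
    linear_combination h
  rw [hxr] at hx
  rw [isIntegral_algebraMap_iff (algebraMap ℚ ℂ).injective] at hx
  obtain ⟨y, hy⟩ := IsIntegrallyClosed.isIntegral_iff.mp hx
  refine ⟨y, ?_⟩
  have hp'' : (p : ℚ) ≠ 0 := by exact_mod_cast hp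
  have : (N : ℚ) = (p : ℚ) * (y : ℚ) := by
    have hy' : (y : ℚ) = (N : ℚ) / p := by simpa using hy
    rw [hy']
    field_simp
  exact_mod_cast this

/-- One step of the descent. -/
theorem descent_step (p q : ℕ) [Fact p.Prime] (hpq : p * q = 6) (hq : ¬ p ∣ q)
    (t : ℕ) (ht : 1 ≤ t) (m : ℕ) (hm : m ∣ p ^ t + 1) (ζ : ℂ) (hζ : ζ ^ m = 1)
    (f : ℤ[X]) (c : ℤ)
    (h : aeval ζ f * (starRingEnd ℂ) (aeval ζ f) = 6 * (c : ℂ) ^ 2) :
    ∃ (w : ℤ[X]) (c' : ℤ), c = p * c' ∧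
      aeval ζ w * (starRingEnd ℂ) (aeval ζ w) = 6 * (c' : ℂ) ^ 2 := by
  have hp : p.Prime := Fact.out
  have hp2 : 2 ≤ p := hp.two_le
  have hm0 : 0 < m := by
    rcases Nat.eq_zero_or_pos m with rfl | h0
    · simp at hm
    · exact h0
  have hconj : (starRingEnd ℂ) ζ = ζ ^ (p ^ t) := conj_eq_pow_of_dvd ζ m hζ _ hm
  have hback : ζ ^ (p ^ (2 * t)) = ζ := by
    have : p ^ (2 * t) = p ^ t * p ^ t := by rw [two_mul, pow_add]
    rw [this, pow_mul, ← hconj, ← map_pow, ← hconj]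
    simp
  set z := aeval ζ f with hz
  obtain ⟨g1, hg1⟩ := int_pow_eq_expand_add p t f
  obtain ⟨g2, hg2⟩ := int_pow_eq_expand_add p (2 * t) f
  have e1 : z ^ (p ^ t) = (starRingEnd ℂ) z + (p : ℂ) * aeval ζ g1 := by
    have := congrArg (aeval ζ) hg1
    rw [map_pow, map_add, map_mul, expand_aeval, ← hconj, aeval_conj_int, aeval_C] at this
    simpa using this
  have e2 : z ^ (p ^ (2 * t)) = z + (p : ℂ) * aeval ζ g2 := by
    have := congrArg (aeval ζ) hg2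
    rw [map_pow, map_add, map_mul, expand_aeval, hback, aeval_C] at this
    simpa using this
  have hpt : 2 ≤ p ^ t := by
    calc 2 ≤ p := hp2
      _ = p ^ 1 := (pow_one p).symm
      _ ≤ p ^ t := Nat.pow_le_pow_right (by omega) ht
  have hle : p ^ t + 1 ≤ p ^ (2 * t) := by
    have : p ^ (2 * t) = p ^ t * p ^ t := by rw [two_mul, pow_add]
    rw [this]
    nlinarith
  obtain ⟨E, hE⟩ := Nat.exists_eq_add_of_le hle
  have hq6 : (6 : ℂ) = (p : ℂ) * (q : ℂ) := by exact_mod_cast hpq.symm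
  -- the quotient polynomial
  set w : ℤ[X] := (C ((q : ℤ) * c ^ 2) + g1 * f) * f ^ E - g2 with hw
  have hzw : z = (p : ℂ) * aeval ζ w := by
    have hw' : aeval ζ w = ((q : ℂ) * (c : ℂ) ^ 2 + aeval ζ g1 * z) * z ^ E - aeval ζ g2 := by
      rw [hw]
      simp only [map_sub, map_mul, map_add, map_pow, eq_intCast,
        map_natCast, map_intCast]
      rw [hz]
    have e3 : z ^ (p ^ (2 * t)) = z ^ (p ^ t) * z * z ^ E := by
      rw [hE, pow_add, pow_add, pow_one]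
    rw [hw']
    have e4 : z ^ (p ^ t) * z = (p : ℂ) * ((q : ℂ) * (c : ℂ) ^ 2 + aeval ζ g1 * z) := by
      rw [e1, add_mul, mul_comm ((starRingEnd ℂ) z) z, h, hq6]
      ring
    have e5 : z = z ^ (p ^ (2 * t)) - (p : ℂ) * aeval ζ g2 := by rw [e2]; ring
    calc z = z ^ (p ^ (2 * t)) - (p : ℂ) * aeval ζ g2 := e5
      _ = (z ^ (p ^ t) * z) * z ^ E - (p : ℂ) * aeval ζ g2 := by rw [e3]
      _ = (p : ℂ) * (((q : ℂ) * (c : ℂ) ^ 2 + aeval ζ g1 * z) * z ^ E - aeval ζ g2) := by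
          rw [e4]; ring
  have hp0 : (p : ℂ) ≠ 0 := by
    have : p ≠ 0 := by omega
    exact_mod_cast this
  set ww := aeval ζ w with hww
  have hnorm : (p : ℂ) * (ww * (starRingEnd ℂ) ww) = (q : ℂ) * (c : ℂ) ^ 2 := by
    have h' := h
    rw [hzw, map_mul, Complex.conj_natCast, hq6] at h'
    have : (p : ℂ) * ((p : ℂ) * (ww * (starRingEnd ℂ) ww)) = (p : ℂ) * ((q : ℂ) * (c : ℂ) ^ 2) := by
      linear_combination h'
    exact mul_left_cancel₀ hp0 this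
  have hζint : IsIntegral ℤ ζ := isIntegral_of_pow_eq_one ζ m hm0 hζ
  have hint : IsIntegral ℤ (ww * (starRingEnd ℂ) ww) := by
    apply IsIntegral.mul
    · exact isIntegral_aeval ζ hζint w
    · rw [hww, ← aeval_conj_int, hconj]
      exact isIntegral_aeval _ (hζint.pow _) w
  have hdvd : (p : ℤ) ∣ (q : ℤ) * c ^ 2 := by
    apply int_dvd_of_isIntegral_div _ p (by omega) _ hint
    rw [hnorm]
    push_cast
    ring
  have hpc : (p : ℤ) ∣ c := by
    have hpi : Prime (p : ℤ) := Nat.prime_iff_prime_int.mp hp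
    rcases hpi.dvd_or_dvd hdvd with h1 | h1
    · exfalso
      apply hq
      exact_mod_cast h1
    · exact hpi.dvd_of_dvd_pow h1
  obtain ⟨c', hc'⟩ := hpc
  refine ⟨w, c', hc', ?_⟩
  have : (p : ℂ) * (ww * (starRingEnd ℂ) ww) = (p : ℂ) * (6 * (c' : ℂ) ^ 2) := by
    rw [hnorm, hc', hq6]
    push_cast
    ring
  exact mul_left_cancel₀ hp0 this

/-- Descent: `f(ζ) * conj (f(ζ)) = 6 c^2` forces `c = 0`. -/
theorem descent (p q : ℕ) [Fact p.Prime] (hpq : p * q = 6) (hq : ¬ p ∣ q)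
    (t : ℕ) (ht : 1 ≤ t) (m : ℕ) (hm : m ∣ p ^ t + 1) (ζ : ℂ) (hζ : ζ ^ m = 1) :
    ∀ n : ℕ, ∀ (f : ℤ[X]) (c : ℤ), c.natAbs ≤ n →
      aeval ζ f * (starRingEnd ℂ) (aeval ζ f) = 6 * (c : ℂ) ^ 2 → c = 0 := by
  have hp : p.Prime := Fact.out
  intro n
  induction n with
  | zero =>
    intro f c hc _
    exact Int.natAbs_eq_zero.mp (Nat.le_zero.mp hc)
  | succ n ih =>
    intro f c hc h
    obtain ⟨w, c', hc', hw⟩ := descent_step p q hpq hq t ht m hm ζ hζ f c h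
    by_contra hc0
    have hc'0 : c' ≠ 0 := by
      rintro rfl
      apply hc0
      rw [hc']; ring
    have hlt : c'.natAbs ≤ n := by
      rw [hc', Int.natAbs_mul, Int.natAbs_natCast] at hc
      have h2 : 2 ≤ p := hp.two_le
      have hpos : 0 < c'.natAbs := Int.natAbs_pos.mpr hc'0
      nlinarith
    exact hc'0 (ih w c' hlt hw)

end Vale.Agent.Lib.P355
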