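import Mathlib
import Vale.Agent.Lib.P355.Defs
import Vale.Agent.Lib.P355.FieldObstructionProof
import Vale.Agent.Lib.P355.Descent

namespace Vale.Agent.Lib.P355

open Polynomial

/-- Elements of `ℚ(ζ)` are integer polynomials in `ζ` divided by a nonzero integer. -/
theorem exists_int_poly_of_mem_adjoin (ζ : ℂ) (hζ : IsIntegral ℤ ζ) (x : ℂ)
    (hx : x ∈ IntermediateField.adjoin ℚ ({ζ} : Set ℂ)) :
    ∃ (f : ℤ[X]) (c : ℤ), c ≠ 0 ∧ (c : ℂ) * x = aeval ζ f := by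
  have halg : IsAlgebraic ℚ ζ := by
    have : IsIntegral ℚ ζ := hζ.tower_top
    exact this.isAlgebraic
  have hx' : x ∈ (IntermediateField.adjoin ℚ ({ζ} : Set ℂ)).toSubalgebra := hx
  rw [IntermediateField.adjoin_simple_toSubalgebra_of_isAlgebraic halg,
    Algebra.adjoin_singleton_eq_range_aeval] at hx'
  obtain ⟨q, rfl⟩ := hx'
  obtain ⟨b, hb, hq⟩ := IsLocalization.integerNormalization_spec (nonZeroDivisors ℤ) q
  refine ⟨IsLocalization.integerNormalization (nonZeroDivisors ℤ) q, b,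
    nonZeroDivisors.ne_zero hb, ?_⟩
  have h1 : aeval ζ (IsLocalization.integerNormalization (nonZeroDivisors ℤ) q)
      = aeval ζ ((IsLocalization.integerNormalization (nonZeroDivisors ℤ) q).map
          (algebraMap ℤ ℚ)) := (aeval_map_algebraMap ℚ ζ _).symm
  rw [h1, hq, map_zsmul, zsmul_eq_mul]
  rfl

theorem not_norm_six_of_mem_adjoin (p q : ℕ) [Fact p.Prime] (hpq : p * q = 6) (hq : ¬ p ∣ q)
    (t : ℕ) (ht : 1 ≤ t) (m : ℕ) (hm : m ∣ p ^ t + 1) (ζ : ℂ) (hζ : ζ ^ m = 1) (x : ℂ)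
    (hx : x ∈ IntermediateField.adjoin ℚ ({ζ} : Set ℂ)) :
    x * (starRingEnd ℂ) x ≠ 6 := by
  intro h
  have hm0 : 0 < m := by
    rcases Nat.eq_zero_or_pos m with rfl | h0
    · simp at hm
    · exact h0
  obtain ⟨f, c, hc, hf⟩ := exists_int_poly_of_mem_adjoin ζ (isIntegral_of_pow_eq_one ζ m hm0 hζ) x hx
  apply hc
  apply descent p q hpq hq t ht m hm ζ hζ c.natAbs f c le_rfl
  rw [← hf, map_mul, map_intCast]
  linear_combination ((c : ℂ) ^ 2) * h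

theorem conj_mem_adjoin (m N : ℕ) (hm : m ∣ N + 1) (ζ : ℂ) (hζ : ζ ^ m = 1) (x : ℂ)
    (hx : x ∈ IntermediateField.adjoin ℚ ({ζ} : Set ℂ)) :
    (starRingEnd ℂ) x ∈ IntermediateField.adjoin ℚ ({ζ} : Set ℂ) := by
  have hm0 : 0 < m := by
    rcases Nat.eq_zero_or_pos m with rfl | h0
    · simp at hm
    · exact h0
  obtain ⟨f, c, hc, hf⟩ := exists_int_poly_of_mem_adjoin ζ (isIntegral_of_pow_eq_one ζ m hm0 hζ) x hx
  have hconj : (starRingEnd ℂ) ζ = ζ ^ N := conj_eq_pow_of_dvd ζ m hζ N hm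
  have hζmem : ζ ∈ IntermediateField.adjoin ℚ ({ζ} : Set ℂ) :=
    IntermediateField.mem_adjoin_simple_self ℚ ζ
  have h1 : (c : ℂ) * (starRingEnd ℂ) x = aeval (ζ ^ N) f := by
    rw [← hconj, aeval_conj_int, ← hf, map_mul, map_intCast]
  have h2 : aeval (ζ ^ N) f ∈ IntermediateField.adjoin ℚ ({ζ} : Set ℂ) := by
    rw [aeval_eq_sum_range]
    refine sum_mem fun i _ => ?_
    rw [zsmul_eq_mul]
    refine mul_mem ?_ (pow_mem (pow_mem hζmem _) _)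
    exact intCast_mem _ _
  have hc' : (c : ℂ) ≠ 0 := by exact_mod_cast hc
  have h3 : (starRingEnd ℂ) x = (c : ℂ)⁻¹ * aeval (ζ ^ N) f := by
    rw [← h1, ← mul_assoc, inv_mul_cancel₀ hc', one_mul]
  rw [h3]
  exact mul_mem (inv_mem (intCast_mem _ _)) h2

theorem cyclotomicObstruction_aux (p q : ℕ) [Fact p.Prime] (hpq : p * q = 6) (hq : ¬ p ∣ q)
    (t : ℕ) (ht : 1 ≤ t) (m : ℕ) (hm : m ∣ p ^ t + 1) (ζ : ℂ) (hζ : ζ ^ m = 1)
    {ι : Type*} (B : ι → OrthonormalBasis (Fin 6) ℂ (EuclideanSpace ℂ (Fin 6)))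
    (hMU : ∀ i j, i ≠ j → MutuallyUnbiased (B i) (B j))
    (i₀ : ι) (hstd : B i₀ = EuclideanSpace.basisFun (Fin 6) ℂ)
    (hK : ∀ i, i ≠ i₀ → ∀ k a b,
      (B i k).ofLp a / (B i k).ofLp b ∈ IntermediateField.adjoin ℚ ({ζ} : Set ℂ)) :
    ∀ i j, i ≠ i₀ → j ≠ i₀ → i = j := by
  refine fieldObstruction (IntermediateField.adjoin ℚ ({ζ} : Set ℂ)).toSubfield.toSubring
    ?_ ?_ B hMU i₀ hstd ?_
  · intro z hz
    exact conj_mem_adjoin m (p ^ t) hm ζ hζ z hz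
  · intro z hz
    exact not_norm_six_of_mem_adjoin p q hpq hq t ht m hm ζ hζ z hz
  · intro i hi k a b
    exact hK i hi k a b

theorem cyclotomicObstruction (p t m : ℕ) (hp : p = 2 ∨ p = 3) (hm : m ∣ p ^ t + 1)
    (ζ : ℂ) (hζ : ζ ^ m = 1)
    {ι : Type*} (B : ι → OrthonormalBasis (Fin 6) ℂ (EuclideanSpace ℂ (Fin 6)))
    (hMU : ∀ i j, i ≠ j → MutuallyUnbiased (B i) (B j))
    (i₀ : ι) (hstd : B i₀ = EuclideanSpace.basisFun (Fin 6) ℂ)
    (hK : ∀ i, i ≠ i₀ → ∀ k a b,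
      (B i k).ofLp a / (B i k).ofLp b ∈ IntermediateField.adjoin ℚ ({ζ} : Set ℂ)) :
    ∀ i j, i ≠ i₀ → j ≠ i₀ → i = j := by
  have h2 : Fact (Nat.Prime 2) := ⟨Nat.prime_two⟩
  have h3 : Fact (Nat.Prime 3) := ⟨Nat.prime_three⟩
  rcases Nat.eq_zero_or_pos t with rfl | ht
  · -- `m ∣ 2`, hence `m ∣ 3 ^ 1 + 1`
    have hm2 : m ∣ 2 := by
      rcases hp with rfl | rfl <;> simpa using hm
    have hm4 : m ∣ 3 ^ 1 + 1 := Dvd.dvd.trans hm2 (by norm_num)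
    exact cyclotomicObstruction_aux 3 2 (by norm_num) (by norm_num) 1 le_rfl m hm4 ζ hζ B hMU i₀
      hstd hK
  · rcases hp with rfl | rfl
    · exact cyclotomicObstruction_aux 2 3 (by norm_num) (by norm_num) t ht m hm ζ hζ B hMU i₀
        hstd hK
    · exact cyclotomicObstruction_aux 3 2 (by norm_num) (by norm_num) t ht m hm ζ hζ B hMU i₀
        hstd hK

end Vale.Agent.Lib.P355
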